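import Vale.Agent.P022.H20.GalDef
import Vale.Agent.P022.H933.St.Tw

/-!
# P022-L3, [TWIST], the Galois side: Frobenius elements and inertia on roots of unity
-/

open NumberField Matrix

noncomputable section

namespace Vale.Agent.P022.H811.L3

/-- two `m`-th roots of unity which are congruent modulo a prime not above `m` are equal -/
theorem root_eq {m : ℕ} (hm : 0 < m) (P : Ideal (𝓞 Qb)) (hP : P.IsPrime)
    (hmP : (m : 𝓞 Qb) ∉ P) {u v : 𝓞 Qb} (hu : u ^ m = 1) (hv : v ^ m = 1) (h : u - v ∈ P) :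
    u = v := by
  set w := u * v ^ (m - 1) with hw
  have hv1 : v ^ (m - 1) * v = 1 := by
    rw [← pow_succ, Nat.sub_add_cancel hm, hv]
  have hwm : w ^ m = 1 := by
    rw [hw, mul_pow, hu, ← pow_mul, mul_comm (m - 1) m, pow_mul, hv, one_pow, one_mul]
  have hw1 : w - 1 ∈ P := by
    have : w - 1 = (u - v) * v ^ (m - 1) := by
      rw [sub_mul, mul_comm v, hv1]
    rw [this]
    exact P.mul_mem_right _ h
  have key : w = 1 := by
    by_contra hne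
    have h1 : (w - 1) * ∑ j ∈ Finset.range m, w ^ j = 0 := by
      rw [mul_geom_sum, hwm, sub_self]
    have h2 : ∑ j ∈ Finset.range m, w ^ j = 0 :=
      (mul_eq_zero.1 h1).resolve_left (sub_ne_zero.2 hne)
    have h3 : Ideal.Quotient.mk P w = 1 := by
      rw [← sub_eq_zero, ← map_one (Ideal.Quotient.mk P), ← map_sub]
      exact Ideal.Quotient.eq_zero_iff_mem.2 hw1
    have h4 := congrArg (Ideal.Quotient.mk P) h2
    rw [map_sum, map_zero] at h4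
    simp only [map_pow, h3, one_pow, Finset.sum_const, Finset.card_range, nsmul_eq_mul,
      mul_one] at h4
    refine hmP (Ideal.Quotient.eq_zero_iff_mem.1 ?_)
    rw [map_natCast]
    exact h4
  calc u = u * (v ^ (m - 1) * v) := by rw [hv1, mul_one]
    _ = w * v := by rw [hw, mul_assoc]
    _ = v := by rw [key, one_mul]

theorem nat_notMem {m p : ℕ} (hc : p.Coprime m) (P : Ideal (𝓞 Qb)) (hP : P.IsPrime)
    (hpP : (p : 𝓞 Qb) ∈ P) : (m : 𝓞 Qb) ∉ P := by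
  intro h
  have h1 : (1 : 𝓞 Qb) ∈ P := by
    obtain ⟨a, b, hab⟩ := Nat.isCoprime_iff_coprime.2 hc
    have h2 : (1 : 𝓞 Qb) = a * p + b * m := by exact_mod_cast hab.symm
    rw [h2]
    exact P.add_mem (P.mul_mem_left _ hpP) (P.mul_mem_left _ h)
  exact hP.ne_top ((Ideal.eq_top_iff_one P).2 h1)

theorem exists_int {m : ℕ} (hm : 0 < m) {ζ : Qb} (hζ : ζ ^ m = 1) :
    ∃ z : 𝓞 Qb, (z : Qb) = ζ ∧ z ^ m = 1 := by
  have h1 : IsIntegral ℤ ζ := IsIntegral.of_pow hm (by rw [hζ]; exact isIntegral_one)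
  refine ⟨⟨ζ, h1⟩, rfl, ?_⟩
  apply RingOfIntegers.ext
  exact hζ

theorem smul_coe' (g : GQ) (z : 𝓞 Qb) : ((g • z : 𝓞 Qb) : Qb) = g z := rfl

theorem smul_pow' {m : ℕ} (g : GQ) {z : 𝓞 Qb} (hz : z ^ m = 1) : (g • z) ^ m = 1 := by
  rw [← _root_.smul_pow', hz, smul_one]

theorem frob_zeta {m ℓ : ℕ} (hm : 0 < m) (hℓ : ℓ.Prime) (hc : ℓ.Coprime m) {g : GQ}
    (hg : IsFrob ℓ g) (ζ : Qb) (hζ : ζ ^ m = 1) : g ζ = ζ ^ ℓ := by
  obtain ⟨P, hP, hℓP, hg⟩ := hg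
  obtain ⟨z, rfl, hz⟩ := exists_int hm hζ
  have h := root_eq hm P hP (nat_notMem hc P hP hℓP) (u := g • z) (v := z ^ ℓ)
    (smul_pow' g hz) (by rw [← pow_mul, mul_comm, pow_mul, hz, one_pow]) (hg z)
  have h2 := congrArg (fun x : 𝓞 Qb => (x : Qb)) h
  simpa [smul_coe'] using h2

theorem inert_zeta {m p : ℕ} (hm : 0 < m) (hp : p.Prime) (hc : p.Coprime m) (P : Ideal (𝓞 Qb))
    (hP : P.IsPrime) (hpP : (p : 𝓞 Qb) ∈ P) {g : GQ} (hg : ∀ x : 𝓞 Qb, g • x - x ∈ P) (ζ : Qb)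
    (hζ : ζ ^ m = 1) : g ζ = ζ := by
  obtain ⟨z, rfl, hz⟩ := exists_int hm hζ
  have h := root_eq hm P hP (nat_notMem hc P hP hpP) (u := g • z) (v := z)
    (smul_pow' g hz) hz (hg z)
  have h2 := congrArg (fun x : 𝓞 Qb => (x : Qb)) h
  simpa [smul_coe'] using h2

variable {E : Type} [Field E]

theorem pow_val {m : ℕ} (hm : 0 < m) (a : ℕ) {ζ : Qb} (hζ : ζ ^ m = 1) :
    ζ ^ ((a : ZMod m)).val = ζ ^ a := by
  have : NeZero m := ⟨hm.ne'⟩
  rw [ZMod.val_natCast]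
  conv_rhs => rw [← Nat.div_add_mod a m, pow_add, pow_mul, hζ, one_pow, one_mul]

theorem frob_twist {m ℓ : ℕ} (hm : 0 < m) (hℓ : ℓ.Prime) (hc : ℓ.Coprime m)
    {ψ : (ZMod m)ˣ →* Eˣ} {r₀ r : GQ →* GL (Fin 2) E} (htw : St.IsTwist m ψ r₀ r) {g : GQ}
    (hg : IsFrob ℓ g) :
    (r g : Matrix (Fin 2) (Fin 2) E) = ((ψ (ZMod.unitOfCoprime ℓ hc) : Eˣ) : E) •
      (r₀ g : Matrix (Fin 2) (Fin 2) E) := by
  refine htw g _ fun ζ hζ => ?_
  rw [ZMod.coe_unitOfCoprime, pow_val hm ℓ hζ]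
  exact frob_zeta hm hℓ hc hg ζ hζ

theorem inert_twist {m p : ℕ} (hm : 0 < m) (hp : p.Prime) (hc : p.Coprime m)
    {ψ : (ZMod m)ˣ →* Eˣ} {r₀ r : GQ →* GL (Fin 2) E} (htw : St.IsTwist m ψ r₀ r)
    (P : Ideal (𝓞 Qb)) (hP : P.IsPrime) (hpP : (p : 𝓞 Qb) ∈ P) {g : GQ}
    (hg : ∀ x : 𝓞 Qb, g • x - x ∈ P) : r g = r₀ g := by
  have h := htw g 1 fun ζ hζ => by
    have h1 := pow_val hm 1 hζ
    rw [Nat.cast_one, pow_one] at h1
    rw [Units.val_one, h1]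
    exact inert_zeta hm hp hc P hP hpP hg ζ hζ
  apply Units.ext
  rw [h, map_one, Units.val_one, one_smul]

theorem unrAt_twist {m p : ℕ} (hm : 0 < m) (hp : p.Prime) (hc : p.Coprime m)
    {ψ : (ZMod m)ˣ →* Eˣ} {r₀ r : GQ →* GL (Fin 2) E} (htw : St.IsTwist m ψ r₀ r)
    (h : UnrAt r₀ p) : UnrAt r p := by
  intro P hP hpP g hg
  rw [inert_twist hm hp hc htw P hP hpP hg]
  exact h P hP hpP g hg

end Vale.Agent.P022.H811.L3
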