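import Vale.Agent.P022.H472.Lit2
import Vale.Agent.P022.H783.QE

/-!
# P022-L3, [TWIST], the `U_p` half: for `p ∣ N` the operator `U_p` on `M_k(Γ₁(N))` commutes with
`T_ℓ`, `ℓ S_ℓ`; so an element of the Hecke algebra which kills all coefficients `a_n`, `n` prime to
`m`, is zero when the primes of `m` divide `N`
-/

open scoped ModularForm MatrixGroups Manifold
open UpperHalfPlane Matrix CongruenceSubgroup
open Vale.Agent.P022.H783
open Vale.Agent.P004H.H181 (Reps key1 fin_eq)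

noncomputable section

namespace Vale.Agent.P022.H811.L3

variable {N : ℕ}

/-- the representatives `[1, j; 0, p]` -/
def bU (p : ℕ) (hp : p.Prime) (j : Fin p) : GL (Fin 2) ℚ :=
  tri 1 (j : ℕ) p (by simpa using hp.ne_zero)

theorem bU_det (p : ℕ) (hp : p.Prime) (j : Fin p) :
    0 < ((bU p hp j).map (algebraMap ℚ ℝ)).det.val := by
  have h0 : (0 : ℝ) < p := by exact_mod_cast hp.pos
  rw [bU, tri_det]
  push_cast
  linarith

theorem bU_coe (p : ℕ) (hp : p.Prime) (j : Fin p) :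
    (((bU p hp j).map (algebraMap ℚ ℝ) : GL (Fin 2) ℝ) : Matrix (Fin 2) (Fin 2) ℝ) =
      !![(1 : ℝ), (j : ℕ); 0, p] := by
  rw [bU, tri_coe]
  push_cast
  rfl

/-- an integral matrix of determinant `p ∣ N`, `≡ [1, *; 0, *]` modulo `N`, lies in `Γ₁(N) β_j` -/
theorem cosetsU {p : ℕ} (hp : p.Prime) (hN : p ∣ N) {a' b' c' d' : ℤ}
    (hdet : a' * d' - b' * c' = p)
    (hc : (N : ℤ) ∣ c') (ha' : (N : ℤ) ∣ a' - 1) (M : GL (Fin 2) ℝ)
    (hM : (M : Matrix (Fin 2) (Fin 2) ℝ) = !![(a' : ℝ), b'; c', d']) :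
    ∃ j, ∃ γ' ∈ Gam N, M = γ' * (bU p hp j).map (algebraMap ℚ ℝ) := by
  have hl0 : (p : ℤ) ≠ 0 := by exact_mod_cast hp.ne_zero
  have hpN : (p : ℤ) ∣ N := by exact_mod_cast hN
  have hh : ¬ ((p : ℤ) ∣ a' ∧ (p : ℤ) ∣ c') := by
    rintro ⟨h1, -⟩
    have h2 : (p : ℤ) ∣ 1 := by
      have := dvd_sub h1 (hpN.trans ha')
      rwa [sub_sub_cancel] at this
    have h3 : p ∣ 1 := by exact_mod_cast h2
    exact hp.one_lt.ne' (Nat.dvd_one.1 h3)
  obtain ⟨j, u, v, hu, hv⟩ := key1 p hp hdet hh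
  have e1 : a' * v - u * c' = 1 := by
    apply mul_left_cancel₀ hl0
    rw [hu, hv] at hdet
    linear_combination hdet
  have e2 : (N : ℤ) ∣ v - 1 := by
    obtain ⟨w, hw⟩ := ha'
    obtain ⟨t, ht⟩ := hc
    refine ⟨u * t - w * v, ?_⟩
    rw [ht] at e1
    linear_combination e1 - v * hw
  obtain ⟨γ', hγ', hγ2⟩ := mem_G1 N e1 hc e2
  refine ⟨j, γ', hγ', ?_⟩
  apply Units.ext
  rw [hM, Units.val_mul, hγ2, bU_coe, hu, hv]
  ext i j
  fin_cases i <;> fin_cases j <;> simp [Matrix.mul_apply, Fin.sum_univ_two]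

theorem repsU {p : ℕ} (hp : p.Prime) (hN : p ∣ N) :
    Reps (Gam N) (fun i => (bU p hp i).map (algebraMap ℚ ℝ)) where
  ex := by
    intro i γ hγ
    obtain ⟨a, b, c, d, h1, h2, h2a, h2d, h3⟩ := of_mem_G1 hγ
    refine cosetsU hp hN (a' := a + (i : ℕ) * c) (b' := b + (i : ℕ) * d) (c' := p * c)
      (d' := p * d) (by linear_combination (p : ℤ) * h1) (h2.mul_left _) ?_ _ ?_
    · have : a + (i : ℕ) * c - 1 = (a - 1) + (i : ℕ) * c := by ring
      rw [this]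
      exact dvd_add h2a (h2.mul_left _)
    · rw [Units.val_mul, h3, bU_coe]
      ext i j
      fin_cases i <;> fin_cases j <;> simp [Matrix.mul_apply, Fin.sum_univ_two]
  uniq := by
    intro i j γ hγ h
    have : Fact p.Prime := ⟨hp⟩
    obtain ⟨a, b, c, d, h1, h2, h2a, h2d, h3⟩ := of_mem_G1 hγ
    have h4 := congrArg (fun x : GL (Fin 2) ℝ => (x : Matrix (Fin 2) (Fin 2) ℝ)) h
    simp only [Units.val_mul, h3, bU_coe] at h4
    have h00 := congrFun (congrFun h4 0) 0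
    have h01 := congrFun (congrFun h4 0) 1
    simp [Matrix.mul_apply, Fin.sum_univ_two] at h00 h01
    rw [← h00, one_mul] at h01
    exact fin_eq p h01

/-- `U_p` on `M_k(Γ₁(N))`, `p ∣ N` -/
def Up [NeZero N] {p : ℕ} (hp : p.Prime) (hN : p ∣ N) (k : ℕ) : Module.End ℂ (MF N k) :=
  hSum (Gam N) (bU p hp) (bU_det p hp) (repsU hp hN) k

theorem Up_coe [NeZero N] {p : ℕ} (hp : p.Prime) (hN : p ∣ N) (k : ℕ) (f : MF N k) :
    (Up hp hN k f : ℍ → ℂ) = ∑ j : Fin p, (f : ℍ → ℂ) ∣[(k : ℤ)] (up p hp.ne_zero j) := by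
  rw [Up, hSum_coe]
  rfl

theorem conj_cosetsU {p : ℕ} (hp : p.Prime) (hN : p ∣ N) {s : SL(2, ℤ)} (hs : s ∈ Gamma0 N)
    (i : Fin p) :
    ∃ j, ∃ γ ∈ Gam N, (bU p hp i).map (algebraMap ℚ ℝ) * SpecialLinearGroup.mapGL ℝ s =
      γ * SpecialLinearGroup.mapGL ℝ s * (bU p hp j).map (algebraMap ℚ ℝ) := by
  obtain ⟨c', hc'⟩ : (N : ℤ) ∣ s 1 0 := (ZMod.intCast_zmod_eq_zero_iff_dvd _ N).1 (Gamma0_mem.1 hs)
  have hsd : (s 0 0 : ℤ) * s 1 1 - s 0 1 * s 1 0 = 1 := by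
    have := s.det_coe
    rwa [Matrix.det_fin_two] at this
  set A := s 0 0
  set B := s 0 1
  set C := s 1 0
  set D := s 1 1
  obtain ⟨j, γ, hγ, h⟩ := cosetsU hp hN
    (a' := D * (A + (i : ℕ) * C) - B * (p * C))
    (b' := D * (B + (i : ℕ) * D) - B * (p * D))
    (c' := -C * (A + (i : ℕ) * C) + A * (p * C))
    (d' := -C * (B + (i : ℕ) * D) + A * (p * D))
    (by linear_combination (p : ℤ) * (A * D - B * C + 1) * hsd)
    (by
      refine ⟨-c' * (A + (i : ℕ) * C) + A * (p * c'), ?_⟩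
      rw [hc']
      ring)
    (by
      refine ⟨D * (i : ℕ) * c' - B * p * c' + B * c', ?_⟩
      rw [hc'] at hsd ⊢
      linear_combination hsd)
    ((SpecialLinearGroup.mapGL ℝ s)⁻¹ * (bU p hp i).map (algebraMap ℚ ℝ) *
      SpecialLinearGroup.mapGL ℝ s)
    (by
      rw [Units.val_mul, Units.val_mul, bU_coe, mapGL_inv_coe, mapGL_coe']
      ext i j
      fin_cases i <;> fin_cases j <;>
        simp [Matrix.mul_apply, Fin.sum_univ_two] <;> ring)
  obtain ⟨g, hg, rfl⟩ := hγ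
  refine ⟨j, SpecialLinearGroup.mapGL ℝ (s * g * s⁻¹),
    Subgroup.mem_map_of_mem _ (conj_mem hs hg), ?_⟩
  calc (bU p hp i).map (algebraMap ℚ ℝ) * SpecialLinearGroup.mapGL ℝ s
      = SpecialLinearGroup.mapGL ℝ s * ((SpecialLinearGroup.mapGL ℝ s)⁻¹ *
        (bU p hp i).map (algebraMap ℚ ℝ) * SpecialLinearGroup.mapGL ℝ s) := by group
    _ = _ := by
      rw [h, map_mul, map_mul, map_inv]
      group

/-- `U_p` commutes with every `f ↦ f | s`, `s ∈ Γ₀(N)` -/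
theorem Up_slG0 [NeZero N] {p : ℕ} (hp : p.Prime) (hN : p ∣ N) (k : ℕ) {s : SL(2, ℤ)}
    (hs : s ∈ Gamma0 N) (f : MF N k) :
    Up hp hN k (slG0 hs k f) = slG0 hs k (Up hp hN k f) := by
  choose σ γ hγ hσ using fun i => conj_cosetsU hp hN hs i
  have inj : Function.Injective σ := by
    intro i j h
    have h1 := hσ i
    have h2 := hσ j
    rw [h] at h1
    refine (repsU hp hN).uniq i j (γ i * (γ j)⁻¹)
      ((Gam N).mul_mem (hγ i) ((Gam N).inv_mem (hγ j))) ?_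
    calc (bU p hp i).map (algebraMap ℚ ℝ)
        = ((bU p hp i).map (algebraMap ℚ ℝ) * SpecialLinearGroup.mapGL ℝ s) *
          (SpecialLinearGroup.mapGL ℝ s)⁻¹ := by group
      _ = γ i * (γ j)⁻¹ * ((γ j) * SpecialLinearGroup.mapGL ℝ s *
          (bU p hp (σ j)).map (algebraMap ℚ ℝ)) * (SpecialLinearGroup.mapGL ℝ s)⁻¹ := by
        rw [h1]
        group
      _ = _ := by
        rw [← h2]
        group
  have bij : Function.Bijective σ := Finite.injective_iff_bijective.1 inj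
  have key : (((Up hp hN k f : MF N k) : ℍ → ℂ) ∣[(k : ℤ)] (SpecialLinearGroup.mapGL ℝ s)) =
      ((Up hp hN k (slG0 hs k f) : MF N k) : ℍ → ℂ) := by
    rw [Up, hSum_coe, hSum_coe, slG0_coe, SlashAction.sum_slash]
    have e1 : ∀ i, ((f : ℍ → ℂ) ∣[(k : ℤ)] ((bU p hp i).map (algebraMap ℚ ℝ))) ∣[(k : ℤ)]
        (SpecialLinearGroup.mapGL ℝ s) =
        ((f : ℍ → ℂ) ∣[(k : ℤ)] (SpecialLinearGroup.mapGL ℝ s)) ∣[(k : ℤ)]
          ((bU p hp (σ i)).map (algebraMap ℚ ℝ)) := by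
      intro i
      rw [← SlashAction.slash_mul, hσ, SlashAction.slash_mul, SlashAction.slash_mul]
      congr 2
      exact f.slash_action_eq' _ (hγ i)
    simp_rw [e1]
    exact (Equiv.ofBijective σ bij).sum_comp (fun i => ((f : ℍ → ℂ) ∣[(k : ℤ)]
      (SpecialLinearGroup.mapGL ℝ s)) ∣[(k : ℤ)] ((bU p hp i).map (algebraMap ℚ ℝ)))
  apply DFunLike.coe_injective
  rw [← key, slG0_coe]
  rfl

theorem Up_dia [NeZero N] {p : ℕ} (hp : p.Prime) (hN : p ∣ N) (k : ℕ) (ℓ : PA N) (f : MF N k) :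
    Up hp hN k (dia k ℓ f) = dia k ℓ (Up hp hN k f) :=
  Up_slG0 hp hN k (gd_mem ℓ.coprime) f

theorem hasSum_Up [NeZero N] {p : ℕ} (hp : p.Prime) (hN : p ∣ N) (k : ℕ) {f : MF N k}
    {c : ℕ → ℂ} (hf : ∀ τ : ℍ, HasSum (fun m => c m * qq τ ^ m) (f τ)) (τ : ℍ) :
    HasSum (fun m => c (p * m) * qq τ ^ m) (Up hp hN k f τ) := by
  rw [Up_coe]
  exact hasSum_U hp k hf τ

/-- the coefficients of a form are unique -/
theorem coeff_unique [NeZero N] {k : ℕ} {f : MF N k} {c : ℕ → ℂ}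
    (hf : ∀ τ : ℍ, HasSum (fun m => c m * qq τ ^ m) (f τ)) (m : ℕ) :
    (qExpansion 1 f).coeff m = c m :=
  (ModularFormClass.qExpansion_coeff_unique one_pos one_mem_periods
    (fun τ => by simpa only [smul_eq_mul] using hf τ) m).symm

theorem coeff_Up [NeZero N] {p : ℕ} (hp : p.Prime) (hN : p ∣ N) (k : ℕ) (f : MF N k) (m : ℕ) :
    (qExpansion 1 (Up hp hN k f)).coeff m = (qExpansion 1 f).coeff (p * m) :=
  coeff_unique (hasSum_Up hp hN k (hasSum_form f)) m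

theorem Up_Tl [NeZero N] {p : ℕ} (hp : p.Prime) (hN : p ∣ N) (k : ℕ) (ℓ : PA N) (f : MF N k) :
    Up hp hN k (Tl k ℓ f) = Tl k ℓ (Up hp hN k f) := by
  have hne : p ≠ ℓ.1 := by
    rintro rfl
    exact ℓ.2.2 (hN.mul_left 2)
  have hcop : Nat.Coprime ℓ.1 p := (Nat.coprime_primes ℓ.2.1 hp).2 (Ne.symm hne)
  ext τ
  obtain ⟨c, A⟩ : ∃ c : ℕ → ℂ, ∀ τ, HasSum (fun m => c m * qq τ ^ m) (f τ) :=
    ⟨_, hasSum_form f⟩
  obtain ⟨c1, B⟩ : ∃ c : ℕ → ℂ, ∀ τ, HasSum (fun m => c m * qq τ ^ m) (dia k ℓ f τ) :=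
    ⟨_, hasSum_form _⟩
  have L := hasSum_Up (f := Tl k ℓ f) hp hN k (hasSum_Tl k ℓ A B) τ
  have A' : ∀ τ, HasSum (fun m => c (p * m) * qq τ ^ m) (Up hp hN k f τ) :=
    hasSum_Up hp hN k A
  have B' : ∀ τ, HasSum (fun m => c1 (p * m) * qq τ ^ m) (dia k ℓ (Up hp hN k f) τ) := by
    rw [← Up_dia]
    exact hasSum_Up hp hN k B
  have R := hasSum_Tl (c := fun m => c (p * m)) (c' := fun m => c1 (p * m)) k ℓ A' B' τ
  refine L.unique ?_
  convert R using 2 with m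
  congr 1
  have h1 : ℓ.1 ∣ p * m ↔ ℓ.1 ∣ m := hcop.dvd_mul_left
  simp only [h1, show ℓ.1 * (p * m) = p * (ℓ.1 * m) by ring]
  congr 1
  split_ifs with h
  · rw [Nat.mul_div_assoc _ h]
  · rfl

theorem Up_gHk [NeZero N] {p : ℕ} (hp : p.Prime) (hN : p ∣ N) (i : ℕ) (s : Gen N)
    (f : MF N (i + 1)) :
    Up hp hN (i + 1) (gHk N s i f) = gHk N s i (Up hp hN (i + 1) f) := by
  cases s with
  | inl ℓ => exact Up_Tl hp hN (i + 1) ℓ f
  | inr ℓ =>
    change Up hp hN (i + 1) (((ℓ.1 : ℂ) ^ i) • dia (i + 1) ℓ f) =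
      ((ℓ.1 : ℂ) ^ i) • dia (i + 1) ℓ (Up hp hN (i + 1) f)
    rw [map_smul, Up_dia]

/-- `U_p` commutes with the Hecke algebra -/
theorem Up_lift [NeZero N] {p : ℕ} (hp : p.Prime) (hN : p ∣ N) (i : ℕ)
    (x : FreeAlgebra ℤ (Gen N)) (f : MF N (i + 1)) :
    Up hp hN (i + 1) (FreeAlgebra.lift ℤ (fun s => gHk N s i) x f) =
      FreeAlgebra.lift ℤ (fun s => gHk N s i) x (Up hp hN (i + 1) f) := by
  have key : Commute (Up hp hN (i + 1)) (FreeAlgebra.lift ℤ (fun s => gHk N s i) x) := by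
    induction x using FreeAlgebra.induction with
    | grade0 r =>
      rw [AlgHom.commutes]
      exact (Algebra.commutes r _).symm
    | grade1 s =>
      rw [FreeAlgebra.lift_ι_apply]
      exact LinearMap.ext fun f => Up_gHk hp hN i s f
    | mul a b ha hb =>
      rw [map_mul]
      exact ha.mul_right hb
    | add a b ha hb =>
      rw [map_add]
      exact ha.add_right hb
  exact LinearMap.congr_fun key.eq f

/-- a form of weight `≥ 1` with `a_n = 0` for all `n ≥ 1` is zero -/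
theorem zero_of_coeff [NeZero N] {k : ℕ} (hk : 1 ≤ k) (f : MF N k)
    (h : ∀ n, 1 ≤ n → (qExpansion 1 f).coeff n = 0) : f = 0 := by
  set c := (qExpansion 1 f).coeff 0 with hc
  have h1 : ∀ τ, f τ = c := by
    intro τ
    refine (hasSum_form f τ).unique ?_
    have : HasSum (fun m => (qExpansion 1 f).coeff m * qq τ ^ m)
        ((qExpansion 1 f).coeff 0 * qq τ ^ 0) := by
      refine hasSum_single 0 fun n hn => ?_
      rw [h n (Nat.one_le_iff_ne_zero.2 hn), zero_mul]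
    rwa [pow_zero, mul_one] at this
  have hc0 : c = 0 := by
    obtain ⟨γ, hγ, e⟩ := mem_G1 N (a := 1) (b := 0) (c := N) (d := 1) (by norm_num)
      (dvd_refl _) (by simp)
    have h2 := congrFun (f.slash_action_eq' γ hγ) UpperHalfPlane.I
    have hdet : γ.det.val = 1 := by
      rw [GeneralLinearGroup.val_det_apply, e, Matrix.det_fin_two_of]
      ring
    rw [ModularForm.slash_apply] at h2
    have hσ : ∀ z : ℂ, σ γ z = z := by
      intro z
      rw [σ, if_pos (by rw [hdet]; exact one_pos)]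
      rfl
    change σ γ (f (γ • UpperHalfPlane.I)) * _ * _ = f UpperHalfPlane.I at h2
    rw [hσ, h1, h1, hdet] at h2
    have hd : UpperHalfPlane.denom γ UpperHalfPlane.I = N * Complex.I + 1 := by
      simp [UpperHalfPlane.denom, e]
    rw [hd] at h2
    by_contra hne
    have h3 : ((N : ℂ) * Complex.I + 1) ^ (-(k : ℤ)) = 1 := by
      have : c * ((N : ℂ) * Complex.I + 1) ^ (-(k : ℤ)) = c * 1 := by
        rw [mul_one]
        conv_rhs => rw [← h2]
        simp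
      exact mul_left_cancel₀ hne this
    rw [_root_.zpow_neg, inv_eq_one, zpow_natCast] at h3
    have h4 := congrArg norm h3
    rw [norm_pow, norm_one] at h4
    have h5 : 1 < ‖(N : ℂ) * Complex.I + 1‖ := by
      have hN0 : (1 : ℝ) ≤ N := by exact_mod_cast Nat.one_le_iff_ne_zero.2 (NeZero.ne N)
      have h6 : ‖(N : ℂ) * Complex.I + 1‖ ^ 2 = N ^ 2 + 1 := by
        rw [← Complex.normSq_eq_norm_sq, Complex.normSq_apply]
        simp
        ring
      by_contra h7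
      rw [not_lt] at h7
      have h8 : ‖(N : ℂ) * Complex.I + 1‖ ^ 2 ≤ 1 := pow_le_one₀ (norm_nonneg _) h7
      rw [h6] at h8
      nlinarith
    have h6 := one_lt_pow₀ h5 (Nat.one_le_iff_ne_zero.1 hk)
    rw [h4] at h6
    exact lt_irrefl _ h6
  ext τ
  rw [h1, hc0]
  rfl

/-- **the `U_p` half of [TWIST]** -/
theorem kill_of_coprime [NeZero N] (m i : ℕ) (hm : ∀ p : ℕ, p.Prime → p ∣ m → p ∣ N)
    (x : FreeAlgebra ℤ (Gen N))
    (h : ∀ (f : MF N (i + 1)) (n : ℕ), Nat.Coprime n m →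
      (qExpansion 1 (FreeAlgebra.lift ℤ (fun s => gHk N s i) x f)).coeff n = 0) :
    FreeAlgebra.lift ℤ (fun s => gHk N s i) x = 0 := by
  have key : ∀ n, 1 ≤ n → ∀ f : MF N (i + 1),
      (qExpansion 1 (FreeAlgebra.lift ℤ (fun s => gHk N s i) x f)).coeff n = 0 := by
    intro n
    induction n using Nat.strong_induction_on with
    | _ n ih =>
      intro hn f
      by_cases hc : Nat.Coprime n m
      · exact h f n hc
      obtain ⟨p, hp, h1, h2⟩ := Nat.Prime.not_coprime_iff_dvd.1 hc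
      obtain ⟨n', rfl⟩ := h1
      have hpN := hm p hp h2
      have hn' : 1 ≤ n' := by
        rcases Nat.eq_zero_or_pos n' with rfl | h3
        · simp at hn
        · exact h3
      rw [← coeff_Up hp hpN, Up_lift]
      exact ih n' (by nlinarith [hp.two_le]) hn' _
  exact LinearMap.ext fun f => zero_of_coeff (Nat.le_add_left 1 i) _ fun n hn => key n hn f

end Vale.Agent.P022.H811.L3
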